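import Vale.Agent.P167.Final.MainOf2
import Vale.Agent.P167.H662.Pos
import Vale.Agent.P167.H945.MB2
import Vale.Agent.P167.H871.TabL
import Vale.Agent.P167.XDL.VoutAll
import Vale.Agent.P167.H680.Fin2A
import Vale.Agent.P167.H760.Dir
import Vale.Agent.P167.H365.NRed2
import Vale.Agent.P167.H318.Sym
import Vale.Agent.P167.H632.Three

/-!
# The core is unconditional (`q = 1`)

`s2aQ : H825.S2aQ`, `i_neu : CA.I_NEU`, `i_CORE : CA.I_CORE`, and the convergence of the exploration
path from the geometric input `CL.I_geo` alone.
-/

set_option autoImplicit false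

open MeasureTheory Filter Topology Set

namespace Vale.Agent.P167.Final

/-- The block START. -/
theorem startr : H662.STARTR H662.ztN H662.zfN :=
  H662.startN (H945.mb H871.tab Enl.geo) XDL.vout H871.tab

/-- The bulk condition. -/
theorem s2aQ : H825.S2aQ :=
  H680.s2aQ_of H662.ztN_pos H662.zfN_pos H662.hosN startr

/-- The Neumann condition for one horizontal side. -/
theorem nred (K : ℤ) (hK : 1 ≤ K) : H365.NRED K := by
  obtain ⟨C2, _, h2⟩ := H632.twoS_le
  obtain ⟨C3, α, _, hα, h3⟩ := H632.thrS_le
  exact H365.nred (C2 := C2) (C3 := C3) (α := α) h2 h3 hα H318.sym K hK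

/-- **The Neumann condition.** -/
theorem i_neu : CA.I_NEU := H760.i_neu (nred 8 (by norm_num))

/-- **The core in a polygon**, unconditional. -/
theorem i_CORE : CA.I_CORE := i_core_of s2aQ i_neu

/-- Convergence of the exploration path from the geometric input. -/
theorem main_of3 (hgeo : CL.I_geo) : E6.CurveLimit := main_of2 hgeo s2aQ i_neu

end Vale.Agent.P167.Final
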