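import Vale.Agent.P167.Final.Core
import Vale.Agent.P167.CL.Fin
import Vale.Agent.P167.CL.DQ7

/-!
# P167: Question 1 for `q = 1`

`Final.main`: on bounded Jordan domains the exploration path of critical Bernoulli bond percolation on
the square lattice converges to chordal `SLE_6`.
-/

set_option autoImplicit false

namespace Vale.Agent.P167.Final

/-- The geometric input. -/
theorem i_geo : CL.I_geo := H450.i_geo_of1 (CL.i_stage1_of CL.latr)

/-- **The convergence of the curves, `q = 1`.** -/
theorem main : E6.CurveLimit := main_of3 i_geo

end Vale.Agent.P167.Final
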