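import Vale.Agent.P167.CL.Top
import Vale.Agent.P167.BR.Main
import Vale.Agent.P167.H411.B7.IB7
import Vale.Agent.P167.H411.B7.E2
import Vale.Agent.P167.H161.Cross6
import Vale.Agent.P167.H411.End7
import Vale.Agent.P167.H411.Expand
import Vale.Agent.P167.H174.End6
import Vale.Agent.P167.Fjord.Nf6

/-!
# Convergence of the exploration path for `q = 1` from the last inputs
-/

set_option autoImplicit false

open Filter Topology Set

namespace Vale.Agent.P167.Final

open Vale.Agent.P167.H411 Vale.Agent.P167.E2 Vale.Agent.P167.SLE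
open Vale.Agent.P153.R2.C1 (Cross reparam)

theorem i_fin6 : I_fin6 := by
  intro Φ δ N k p S h
  have hη : Tendsto (fun n => 2 * δ n) atTop (𝓝 0) := by
    simpa using h.2.1.const_mul 2
  refine H174.fin6 h (fun n A => Xc (p n) (k n) (δ n) A.1) _ hη (fun n A c hc => ?_)
  obtain ⟨h1, h2, h3, h4, h5⟩ := h.1 n
  have hA := Finset.mem_powerset.1 A.2
  refine ⟨OrderIso.refl _, ?_⟩
  rw [isInterface_unique h4 h5 h3 hA hc]
  have h6 : reparam (crv (p n) (k n) (δ n) A.1) (OrderIso.refl unitInterval) =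
      crv (p n) (k n) (δ n) A.1 := by
    ext t
    rfl
  rw [h6]
  exact dist_crv_Xc h4 h5 h2 h3 hA h1.le

theorem expn_obsF : Expn obsF 6 1 (1 / 3) (2 / 9) where
  h1 := by norm_num
  h2 := by norm_num
  exp := by
    intro T R hT hR
    obtain ⟨C, b₀, hC, hb₀, h⟩ := obsF_expansion hT hR
    refine ⟨C, b₀, hC, hb₀, fun W b t ht htT hW hWR hb => ?_⟩
    have hb0 : 0 < b := lt_of_lt_of_le hb₀ hb
    have h1 := (h W b t ht htT hW hWR (by rwa [abs_of_pos hb0])).2
    rw [abs_of_pos hb0, mainB] at h1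
    have e : obsF W b t - (1 + 1 / 3 * W t / b + 2 / 9 * (W t ^ 2 - 6 * t) / b ^ 2) =
        obsF W b t - 1 - (W t / (3 * b) + 2 / 9 * (W t ^ 2 - 6 * t) / b ^ 2) := by
      field_simp
      ring
    rw [e]
    exact h1

theorem i_close6 (hgeo : CL.I_geo) (hcore : CA.I_CORE) (hloc : LOC.I_loc1) : I_close6 obsF :=
  CL.i_close6_of hgeo BR.s_br' BR.s_mom' (LOC.i_e2 hcore hloc) B7.i_b7

theorem main_of (hgeo : CL.I_geo) (hcore : CA.I_CORE) (hloc : LOC.I_loc1) : E6.CurveLimit :=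
  curveLimit_of4 expn_obsF (i_close6 hgeo hcore hloc) H161.cross6 i_fin6 Fjord.i_nf6

end Vale.Agent.P167.Final
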