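import Vale.Agent.P167.Final.MainOf
import Vale.Agent.P167.LOC.Fin
import Vale.Agent.P167.H638.L14
import Vale.Agent.P167.H542.Dat
import Vale.Agent.P167.H167.MajDat

/-!
# Convergence of the exploration path for `q = 1` from the last inputs, second version
-/

set_option autoImplicit false

open Filter Topology Set

namespace Vale.Agent.P167.Final

open Vale.Agent.P167.H411

/-- The core from the bulk condition and the Neumann condition. -/
theorem i_core_of (h2a : H825.S2aQ) (hneu : CA.I_NEU) : CA.I_CORE :=
  CA.i_core (H638.L.i_mom h2a H542.i_m2) H542.i_m2 H167.i_EQ hneu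

theorem main_of2 (hgeo : CL.I_geo) (h2a : H825.S2aQ) (hneu : CA.I_NEU) : E6.CurveLimit :=
  main_of hgeo (i_core_of h2a hneu) LOC.i_loc1'

end Vale.Agent.P167.Final
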