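import Vale.Agent.P167.E6.Defs

/-!
# Rohde-Schramm question at `q = 1`: final form of the statement, and its proof from `E6.CurveLimit`
-/

namespace Vale.Agent.P167.Final

open MeasureTheory ProbabilityTheory Filter Topology Set

/-! ### The lattice -/

/-- The point of the plane. -/
def pt (v : ℤ × ℤ) : ℂ := ⟨v.1, v.2⟩

/-- The four directions: east, north, west, south. -/
def dir : Fin 4 → ℤ × ℤ := ![(1, 0), (0, 1), (-1, 0), (0, -1)]

/-- The faces of the lattice are denoted by their lower left corner: the face `f` is the unit square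
`[f.1, f.1 + 1] × [f.2, f.2 + 1]`. The face `face v r` is the one of the four faces around the vertex
`v` which is between the directions `dir r` and `dir (r + 1)` (counterclockwise). -/
def face (v : ℤ × ℤ) (r : Fin 4) : ℤ × ℤ := v + ![(0, 0), (-1, 0), (-1, -1), (0, -1)] r

/-- A simple closed nearest-neighbour polygon `p 0, p 1, …, p (n - 1), p 0`. -/
def IsPolygon {n : ℕ} (p : ZMod n → ℤ × ℤ) : Prop :=
  2 < n ∧ Function.Injective p ∧ ∀ i, ∃ r, p (i + 1) = p i + dir r

/-- `p` is counterclockwise and the finite set `S` of faces is the set of the faces enclosed by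
`p`: the directed edges of `p` are exactly the directed edges `v → v + dir r` of the lattice whose
left face `face v r` is in `S` and whose right face `face v (r - 1)` is not. -/
def Encloses {n : ℕ} (p : ZMod n → ℤ × ℤ) (S : Finset (ℤ × ℤ)) : Prop :=
  ∀ (v : ℤ × ℤ) (r : Fin 4),
    (∃ i, p i = v ∧ p (i + 1) = v + dir r) ↔ face v r ∈ S ∧ face v (r - 1) ∉ S

/-- The vertices of the graph `G`: all lattice vertices in the closed domain. -/
def verts (S : Finset (ℤ × ℤ)) : Finset (ℤ × ℤ) :=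
  S.biUnion fun f => {f, f + (1, 0), f + (0, 1), f + (1, 1)}

/-- The edges of the graph `G`: all lattice edges in the closed domain, that is the sides of the
enclosed faces. -/
def edges (S : Finset (ℤ × ℤ)) : Finset (Sym2 (ℤ × ℤ)) :=
  S.biUnion fun f => {s(f, f + (1, 0)), s(f, f + (0, 1)), s(f + (1, 0), f + (1, 1)),
    s(f + (0, 1), f + (1, 1))}

/-! ### The random-cluster measure -/

/-- The open edges `A` together with the wiring: the wired vertices are `p k, …, p (n - 1)` (the arc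
from `b` to `a`), the free vertices of the boundary are `p 0, …, p (k - 1)`; the edges of the polygon
between two wired vertices count as open. -/
def wiredOpen {n : ℕ} (p : ZMod n → ℤ × ℤ) (k : ℕ) (A : Finset (Sym2 (ℤ × ℤ))) :
    Set (Sym2 (ℤ × ℤ)) :=
  {e | e ∈ A ∨ ∃ i : ℕ, k ≤ i ∧ i + 1 < n ∧ e = s(p i, p (i + 1))}

/-- The number of components of `(V, A)`, isolated vertices included, after the identification of
the wired vertices. -/
noncomputable def clusters {n : ℕ} (p : ZMod n → ℤ × ℤ) (k : ℕ) (S : Finset (ℤ × ℤ))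
    (A : Finset (Sym2 (ℤ × ℤ))) : ℕ :=
  Nat.card ((SimpleGraph.fromEdgeSet (wiredOpen p k A)).induce
    (verts S : Set (ℤ × ℤ))).ConnectedComponent

/-- The self-dual point. -/
noncomputable def selfDual (q : ℝ) : ℝ := √q / (1 + √q)

/-- The weight of the set `A` of open edges in the random-cluster measure. -/
noncomputable def weight (q : ℝ) {n : ℕ} (p : ZMod n → ℤ × ℤ) (k : ℕ) (S : Finset (ℤ × ℤ))
    (A : Finset (Sym2 (ℤ × ℤ))) : ℝ :=
  selfDual q ^ A.card * (1 - selfDual q) ^ ((edges S).card - A.card) * q ^ clusters p k S A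

/-- Expectation for the random-cluster measure on the subsets of the set of edges. -/
noncomputable def mean (q : ℝ) {n : ℕ} (p : ZMod n → ℤ × ℤ) (k : ℕ) (S : Finset (ℤ × ℤ))
    (F : Finset (Sym2 (ℤ × ℤ)) → ℝ) : ℝ :=
  (∑ A ∈ (edges S).powerset, weight q p k S A * F A) / ∑ A ∈ (edges S).powerset, weight q p k S A

/-! ### The interface -/

/-- The edges of the medial lattice: `(v, r)` is the medial edge between the vertex `v` and the
face `face v r`, directed in such a way that `v` is on its left. It ends at the midpoint of the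
edge from `v` to `v + dir (r + 1)`. -/
abbrev Medial := (ℤ × ℤ) × Fin 4

/-- The edge of the lattice at whose midpoint the medial edge ends. -/
def ahead (c : Medial) : Sym2 (ℤ × ℤ) := s(c.1, c.1 + dir (c.2 + 1))

/-- The midpoint of this edge, in the lattice of mesh `δ`. -/
noncomputable def mid (δ : ℝ) (c : Medial) : ℂ :=
  (δ : ℂ) * (pt c.1 + pt (c.1 + dir (c.2 + 1))) / 2

open Classical in
/-- The next medial edge of the path: at an open edge (`ω` is the set of the open edges) the path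
keeps the face on its right and passes to the other end of the edge on its left; at a closed edge
it keeps the vertex on its left and passes to the other face. -/
noncomputable def next (ω : Set (Sym2 (ℤ × ℤ))) (c : Medial) : Medial :=
  if ahead c ∈ ω then (c.1 + dir (c.2 + 1), c.2 - 1) else (c.1, c.2 + 1)

/-- The polygonal curve through `x 0, x 1, …, x m`, parametrised by `[0,1]`. -/
noncomputable def poly (x : ℕ → ℂ) (m : ℕ) (t : ℝ) : ℂ :=
  x ⌊t * m⌋₊ + (t * m - ⌊t * m⌋₊ : ℝ) * (x (⌊t * m⌋₊ + 1) - x ⌊t * m⌋₊)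

/-- `γ` is the interface in the domain of mesh `δ` enclosed by the counterclockwise polygon `p`,
with `p 0, …, p (k - 1)` free and `p k, …, p (n - 1)` wired, for the set `A` of open edges of `G`:
the path in the medial lattice from the midpoint of the edge `p (n - 1) p 0` to the midpoint of the
edge `p (k - 1) p k` which starts with the wired vertex `p (n - 1)` on its left and an exterior face
on its right (coming from outside) and ends when it leaves the domain with the wired vertex `p k` on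
its left. -/
def IsInterface {n : ℕ} (p : ZMod n → ℤ × ℤ) (k : ℕ) (δ : ℝ) (A : Finset (Sym2 (ℤ × ℤ)))
    (γ : C(unitInterval, ℂ)) : Prop :=
  ∃ (m : ℕ) (c : ℕ → Medial), 0 < m ∧
    (c 0).1 = p (-1) ∧ p (-1) + dir ((c 0).2 + 1) = p 0 ∧
    (∀ j, c (j + 1) = next (wiredOpen p k A) (c j)) ∧
    (∀ j, 1 ≤ j → ((c j).1 = p k ∧ p k + dir (c j).2 = p ((k : ZMod n) - 1)) → m + 1 ≤ j) ∧
    (c (m + 1)).1 = p k ∧ p k + dir (c (m + 1)).2 = p ((k : ZMod n) - 1) ∧
    ∀ t : unitInterval, γ t = poly (fun j => mid δ (c j)) m t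

/-! ### Approximation of a marked Jordan domain -/

/-- The point with the angle `t` of the unit circle. -/
noncomputable def circ (t : ℝ) : ℝ × ℝ := (Real.cos t, Real.sin t)

/-- The point of the complex plane. -/
def toC (z : ℝ × ℝ) : ℂ := ⟨z.1, z.2⟩

/-- The Jordan domain `D`: the image of the open unit disc under the homeomorphism `Φ` of the plane
(by the theorem of Schoenflies these are exactly the interiors of Jordan curves, and every
parametrisation of the Jordan curve is the restriction of such a `Φ` to the circle). It is marked at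
`a = Φ (1, 0)` and `b = Φ (-1, 0)`. -/
def dom (Φ : (ℝ × ℝ) ≃ₜ (ℝ × ℝ)) : Set (ℝ × ℝ) := Φ '' {z | z.1 ^ 2 + z.2 ^ 2 < 1}

/-- The counterclockwise polygons `p n` on `δ n ℤ²`, with the free vertices `p 0, …, p (k - 1)` and
the wired vertices `p k, …, p (N - 1)`, approximate `(D; a, b)`: the meshes tend to `0` and the
marked boundary curves converge uniformly (with a common parametrisation; the marks `a n`, `b n` of
the polygon are on its edges `p (N - 1) p 0` and `p (k - 1) p k`). -/
def Approx (Φ : (ℝ × ℝ) ≃ₜ (ℝ × ℝ)) (δ : ℕ → ℝ) (N k : ℕ → ℕ)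
    (p : ∀ n, ZMod (N n) → ℤ × ℤ) (S : ℕ → Finset (ℤ × ℤ)) : Prop :=
  (∀ n, 0 < δ n ∧ 0 < k n ∧ k n < N n ∧ IsPolygon (p n) ∧ Encloses (p n) (S n)) ∧
  Tendsto δ atTop (𝓝 0) ∧
  ∀ ε > 0, ∀ᶠ n in atTop, ∃ s : ℕ → ℝ, Monotone s ∧ s 0 = 0 ∧ s (k n) = Real.pi ∧
    s (N n) = 2 * Real.pi ∧ ∀ i < N n, ∀ t ∈ Icc (s i) (s (i + 1)),
      dist ((δ n : ℂ) * pt (p n i)) (toC (Φ (circ t))) < ε

/-! ### Chordal SLE -/

/-- `g` solves on `[0,t]` the Loewner equation `g' = 2 / (g - W)`, `g 0 = z`, inside the open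
upper half-plane. -/
def IsLoewnerSol (W : ℝ → ℝ) (z : ℂ) (t : ℝ) (g : ℝ → ℂ) : Prop :=
  g 0 = z ∧ ∀ s ∈ Icc 0 t, 0 < (g s).im ∧
    HasDerivWithinAt g (2 / (g s - (W s : ℂ))) (Icc 0 t) s

/-- The domain of `g_t`: the points of the open upper half-plane whose Loewner solution exists on
all of `[0,t]`. -/
def loewnerDomain (W : ℝ → ℝ) (t : ℝ) : Set ℂ := {z | ∃ g, IsLoewnerSol W z t g}

/-- The union of the unbounded connected components of `S`. -/
def unbComp (S : Set ℂ) : Set ℂ := {z ∈ S | ¬ Bornology.IsBounded (connectedComponentIn S z)}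

/-- `γ` is a continuous curve in the closed upper half-plane which generates the Loewner chain
driven by `W`: for every `t` the domain of `g_t` is the unbounded component of the open upper
half-plane minus `γ [0,t]`. -/
structure IsTrace (W : ℝ → ℝ) (γ : ℝ → ℂ) : Prop where
  cont : ContinuousOn γ (Ici 0)
  start : γ 0 = (W 0 : ℂ)
  im_nonneg : ∀ t : ℝ, 0 ≤ t → 0 ≤ (γ t).im
  domain_eq : ∀ t : ℝ, 0 ≤ t →
    loewnerDomain W t = unbComp ({z : ℂ | 0 < z.im} \ γ '' Icc 0 t)

/-- `γ` is the trace of chordal SLE with parameter `κ` in the upper half-plane, from `0` to `∞`, on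
the probability space `(Ω, P)`: its driving function is `√κ` times a standard Brownian motion. -/
def IsSLE {Ω : Type*} [MeasurableSpace Ω] (κ : ℝ) (P : Measure Ω) (γ : Ω → ℝ → ℂ) : Prop :=
  ∃ B : NNReal → Ω → ℝ, IsBrownianReal B P ∧
    ∀ᵐ ω ∂P, IsTrace (fun t => √κ * B t.toNNReal ω) (γ ω)

/-- The parameter of the conjecture. -/
noncomputable def kappa (q : ℝ) : ℝ := 4 * Real.pi / Real.arccos (-√q / 2)

/-- `ψ` is a conformal map from the upper half-plane onto `D`, extended continuously to the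
boundary, which takes `0` to `a` and `∞` to `b`. -/
def IsUniformizer (Φ : (ℝ × ℝ) ≃ₜ (ℝ × ℝ)) (ψ : ℂ → ℂ) : Prop :=
  DifferentiableOn ℂ ψ {z | 0 < z.im} ∧ InjOn ψ {z | 0 < z.im} ∧
    ψ '' {z | 0 < z.im} = toC '' dom Φ ∧ ContinuousOn ψ {z | 0 ≤ z.im} ∧
    ψ 0 = toC (Φ (circ 0)) ∧
    Tendsto ψ (Bornology.cobounded ℂ ⊓ 𝓟 {z | 0 ≤ z.im}) (𝓝 (toC (Φ (circ Real.pi))))

/-! ### The question -/

/-- The distance `d` of curves: `inf sup_t |x (φ₁ t) - y (φ₂ t)|` over the increasing
homeomorphisms `φ₁`, `φ₂` of `[0,1]`. -/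
noncomputable def curveDist (x y : C(unitInterval, ℂ)) : ℝ :=
  ⨅ φ : (unitInterval ≃o unitInterval) × (unitInterval ≃o unitInterval),
    ⨆ t, ‖x (φ.1 t) - y (φ.2 t)‖

/-- `F` is bounded and continuous for the metric `d`. -/
def BoundedContinuous (F : C(unitInterval, ℂ) → ℝ) : Prop :=
  (∃ M, ∀ x, |F x| ≤ M) ∧
    ∀ x, ∀ ε > 0, ∃ η > 0, ∀ y, curveDist x y < η → |F x - F y| < ε

/-- The statement of Q1 for the parameter `q`: there is a chordal `SLE_κ(q)` trace `γ` in the upper
half-plane, and for every bounded Jordan domain `D` with boundary points `a`, `b` and every conformal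
map `ψ` from the upper half-plane onto `(D; a, b)` (such maps exist) the curve `ψ ∘ γ`, with the time
reparametrized onto `[0,1]`, is almost surely a continuous curve `G` from `a` to `b`, and for every
approximation of `(D; a, b)` by lattice polygons the interfaces `η_n` (which exist for all
configurations) converge to it in law in the metric `d`: the expectations of all bounded
`d`-continuous functions converge. -/
def Question (q : ℝ) : Prop :=
  ∃ (Ω : Type) (_ : MeasurableSpace Ω) (P : Measure Ω) (_ : IsProbabilityMeasure P)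
    (γ : Ω → ℝ → ℂ), IsSLE (kappa q) P γ ∧
    ∀ Φ : (ℝ × ℝ) ≃ₜ (ℝ × ℝ), (∃ ψ, IsUniformizer Φ ψ) ∧ ∀ ψ, IsUniformizer Φ ψ →
      ∃ G : Ω → C(unitInterval, ℂ),
        (∀ᵐ ω ∂P, G ω 0 = toC (Φ (circ 0)) ∧ G ω 1 = toC (Φ (circ Real.pi)) ∧
          ∀ t : unitInterval, (t : ℝ) < 1 → G ω t = ψ (γ ω (t / (1 - t)))) ∧
        (∀ F, BoundedContinuous F → AEMeasurable (fun ω => F (G ω)) P) ∧
        ∀ (δ : ℕ → ℝ) (N k : ℕ → ℕ) (p : ∀ n, ZMod (N n) → ℤ × ℤ)
          (S : ℕ → Finset (ℤ × ℤ)), Approx Φ δ N k p S →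
          (∀ n, ∀ A ⊆ edges (S n), ∃ η, IsInterface (p n) (k n) (δ n) A η) ∧
          ∀ η : ∀ n, Finset (Sym2 (ℤ × ℤ)) → C(unitInterval, ℂ),
            (∀ n, ∀ A ⊆ edges (S n), IsInterface (p n) (k n) (δ n) A (η n A)) →
            ∀ F, BoundedContinuous F →
              Tendsto (fun n => mean q (p n) (k n) (S n) fun A => F (η n A)) atTop
                (𝓝 (∫ ω, F (G ω) ∂P))

/-! ### The proof from `E6.CurveLimit` -/

theorem curveDist_le (x y : C(unitInterval, ℂ)) (φ₁ φ₂ : unitInterval ≃o unitInterval) (r : ℝ)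
    (h : ∀ t, ‖x (φ₁ t) - y (φ₂ t)‖ ≤ r) : curveDist x y ≤ r := by
  have hb : BddBelow (range fun φ : (unitInterval ≃o unitInterval) × (unitInterval ≃o unitInterval) =>
      ⨆ t, ‖x (φ.1 t) - y (φ.2 t)‖) := by
    refine ⟨0, ?_⟩
    rintro _ ⟨φ, rfl⟩
    exact Real.iSup_nonneg fun t => norm_nonneg _
  exact (ciInf_le hb (φ₁, φ₂)).trans (ciSup_le h)

theorem continuous_of {F : C(unitInterval, ℂ) → ℝ} (hF : BoundedContinuous F) : Continuous F := by
  rw [Metric.continuous_iff]
  intro x ε hε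
  obtain ⟨η, hη, h⟩ := hF.2 x ε hε
  refine ⟨η / 2, by positivity, fun y hy => ?_⟩
  rw [Real.dist_eq, abs_sub_comm]
  refine h y ?_
  refine lt_of_le_of_lt (curveDist_le x y (OrderIso.refl _) (OrderIso.refl _) (η / 2) fun t => ?_)
    (by linarith)
  have h1 := ContinuousMap.dist_apply_le_dist (f := x) (g := y) t
  rw [dist_comm y x] at hy
  rw [dist_eq_norm] at h1
  exact h1.trans hy.le

theorem invariant_of {F : C(unitInterval, ℂ) → ℝ} (hF : BoundedContinuous F)
    (x : C(unitInterval, ℂ)) (σ : C(unitInterval, unitInterval)) (hσ : StrictMono σ)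
    (hs : Function.Surjective σ) : F (x.comp σ) = F x := by
  by_contra hne
  obtain ⟨η, hη, h⟩ := hF.2 (x.comp σ) |F (x.comp σ) - F x| (abs_pos.2 (sub_ne_zero.2 hne))
  refine lt_irrefl _ (h x ?_)
  refine lt_of_le_of_lt (curveDist_le (x.comp σ) x (OrderIso.refl _)
    (hσ.orderIsoOfSurjective σ hs) 0 fun t => ?_) hη
  simp

theorem isSLE_of {Ω : Type} [MeasurableSpace Ω] {P : Measure Ω} {γ : Ω → ℝ → ℂ}
    (h : Vale.Agent.P164.IsSLE 6 P γ) : IsSLE (kappa 1) P γ := by
  have hk : kappa 1 = 6 := by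
    have h1 : Real.arccos (-√1 / 2) = 2 * Real.pi / 3 := by
      rw [show -√1 / 2 = Real.cos (2 * Real.pi / 3) by
        rw [show 2 * Real.pi / 3 = Real.pi - Real.pi / 3 by ring, Real.cos_pi_sub,
          Real.cos_pi_div_three, Real.sqrt_one]; ring]
      exact Real.arccos_cos (by positivity) (by linarith [Real.pi_pos])
    rw [kappa, h1]
    have := Real.pi_ne_zero
    field_simp
    norm_num
  rw [hk]
  obtain ⟨B, hB, h⟩ := h
  exact ⟨B, hB, h.mono fun ω hω => ⟨hω.cont, hω.start, hω.im_nonneg, hω.domain_eq⟩⟩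

theorem weight_one {n : ℕ} (p : ZMod n → ℤ × ℤ) (k : ℕ) (S : Finset (ℤ × ℤ))
    {A : Finset (Sym2 (ℤ × ℤ))} (hA : A ⊆ edges S) :
    weight 1 p k S A = (1 / 2) ^ (edges S).card := by
  have h1 : selfDual 1 = 1 / 2 := by
    rw [selfDual, Real.sqrt_one]; norm_num
  rw [weight, h1, one_pow, mul_one, show (1 : ℝ) - 1 / 2 = 1 / 2 by norm_num, ← pow_add,
    Nat.add_sub_cancel' (Finset.card_le_card hA)]

theorem mean_one {n : ℕ} (p : ZMod n → ℤ × ℤ) (k : ℕ) (S : Finset (ℤ × ℤ))
    (F : Finset (Sym2 (ℤ × ℤ)) → ℝ) : mean 1 p k S F = Vale.Agent.P167.E6.mean S F := by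
  have h1 : ∑ A ∈ (edges S).powerset, weight 1 p k S A * F A =
      (1 / 2) ^ (edges S).card * ∑ A ∈ (edges S).powerset, F A := by
    rw [Finset.mul_sum]
    exact Finset.sum_congr rfl fun A hA => by rw [weight_one p k S (Finset.mem_powerset.1 hA)]
  have h2 : ∑ A ∈ (edges S).powerset, weight 1 p k S A = 1 := by
    rw [Finset.sum_congr rfl fun A hA => weight_one p k S (Finset.mem_powerset.1 hA),
      Finset.sum_const, Finset.card_powerset, nsmul_eq_mul]
    push_cast
    rw [← mul_pow]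
    norm_num
  have h3 : Vale.Agent.P167.E6.mean S F = (∑ A ∈ (edges S).powerset, F A) / 2 ^ (edges S).card := rfl
  rw [mean, h1, h2, div_one, h3, one_div, inv_pow, div_eq_inv_mul]

theorem of_E6 (h : Vale.Agent.P167.E6.CurveLimit) : Question 1 := by
  obtain ⟨Ω, mΩ, P, hP, γ, hγ, h⟩ := h
  refine ⟨Ω, mΩ, P, hP, γ, isSLE_of hγ, fun Φ => ?_⟩
  obtain ⟨h1, h2⟩ := h Φ
  refine ⟨h1, fun ψ hψ => ?_⟩
  obtain ⟨G, hG1, hG2, hG3⟩ := h2 ψ hψ
  refine ⟨G, ?_, fun F hF => hG2 F (continuous_of hF), ?_⟩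
  · obtain ⟨B, hB, hT⟩ := hγ
    filter_upwards [hG1, hT, hB.eval_zero_ae_eq_zero] with ω h1 h2 h3
    refine ⟨?_, h1⟩
    have h4 : γ ω 0 = 0 := by
      rw [h2.start]
      simp [h3]
    have h5 := h1.2 0 (by simp)
    rw [h5]
    simp only [Set.Icc.coe_zero, zero_div, h4]
    exact hψ.2.2.2.2.1
  · intro δ N k p S hA
    obtain ⟨h3, h4⟩ := hG3 δ N k p S hA
    refine ⟨h3, fun η hη F hF => ?_⟩
    have h5 := h4 η hη F (continuous_of hF) hF.1 (fun x σ hσ hs => invariant_of hF x σ hσ hs)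
    simp only [mean_one]
    exact h5

end Vale.Agent.P167.Final
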