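import Vale.Agent.P167.Final.Question

/-!
# P167: convergence of the random-cluster interfaces to `SLE_κ(q)`, special approximations

`Staircase d`: the approximating lattice polygons are straight (a staircase of slope `± 1`) near the
target `b`. `QuestionP q`: the interfaces converge to `SLE_κ(q)` along all approximations which are
straight near `b`, and for every Jordan domain and all meshes along at least one approximation.
-/

set_option autoImplicit false

namespace Vale.Agent.P167.Final

open MeasureTheory Filter Topology Set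

/-- **The polygons are straight near the target**: there is a radius `r > 0` such that, from some index
on, the steps of the polygon at distance at most `r / δ n` steps from the target vertex `p n (k n)` are
alternately `dir d` and `dir (d + 1)` (a line in the direction of one of the diagonals of the lattice),
except that the two steps at the target vertex itself are both `dir d`. -/
def Staircase (d : Fin 4) (δ : ℕ → ℝ) (N k : ℕ → ℕ) (p : ∀ n, ZMod (N n) → ℤ × ℤ) : Prop :=
  ∃ r : ℝ, 0 < r ∧ ∀ᶠ n in atTop, ∀ m : ℕ, (m : ℝ) * δ n ≤ r →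
    p n ((k n : ZMod (N n)) + m + 1) =
      p n ((k n : ZMod (N n)) + m) + (if Even m then dir d else dir (d + 1)) ∧
    p n ((k n : ZMod (N n)) - m) =
      p n ((k n : ZMod (N n)) - m - 1) + (if Even m then dir d else dir (d + 1))

/-- The interfaces of the lattice domains `(p n, k n, S n)`, mesh `δ n`, with the parameter `q`,
converge in law to the random curve `G` with respect to the distance `curveDist`. -/
def Converges (q : ℝ) {Ω : Type} [MeasurableSpace Ω] (P : Measure Ω) (G : Ω → C(unitInterval, ℂ))
    (δ : ℕ → ℝ) (N k : ℕ → ℕ) (p : ∀ n, ZMod (N n) → ℤ × ℤ) (S : ℕ → Finset (ℤ × ℤ)) : Prop :=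
  ∀ η : ∀ n, Finset (Sym2 (ℤ × ℤ)) → C(unitInterval, ℂ),
    (∀ n, ∀ A ⊆ edges (S n), IsInterface (p n) (k n) (δ n) A (η n A)) →
    ∀ F, BoundedContinuous F →
      Tendsto (fun n => mean q (p n) (k n) (S n) fun A => F (η n A)) atTop
        (𝓝 (∫ ω, F (G ω) ∂P))

/-- **The question for special approximations.** There is a chordal `SLE_κ(q)` trace `γ` in the upper
half-plane such that for every bounded Jordan domain `D` with boundary points `a`, `b` and every
conformal map `ψ` from the upper half-plane onto `(D; a, b)` (such maps exist) the curve `ψ ∘ γ`, with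
the time reparametrized onto `[0,1]`, is almost surely a continuous curve `G` from `a` to `b`, and
* for every approximation of `(D; a, b)` by lattice polygons the interfaces exist, and they converge in
  law to `G` in the metric `d` if the polygons are straight near `b` (in one of the four directions of
  slope `± 1`);
* for every sequence of meshes `δ n > 0` with limit `0` there is an approximation of `(D; a, b)` by
  lattice polygons along which the interfaces converge in law to `G` in the metric `d` (here the
  homeomorphism which describes `(D; a, b)` may be replaced by one with the other orientation, since the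
  lattice polygons are traversed counterclockwise). -/
def QuestionP (q : ℝ) : Prop :=
  ∃ (Ω : Type) (_ : MeasurableSpace Ω) (P : Measure Ω) (_ : IsProbabilityMeasure P)
    (γ : Ω → ℝ → ℂ), IsSLE (kappa q) P γ ∧
    ∀ Φ : (ℝ × ℝ) ≃ₜ (ℝ × ℝ), (∃ ψ, IsUniformizer Φ ψ) ∧ ∀ ψ, IsUniformizer Φ ψ →
      ∃ G : Ω → C(unitInterval, ℂ),
        (∀ᵐ ω ∂P, G ω 0 = toC (Φ (circ 0)) ∧ G ω 1 = toC (Φ (circ Real.pi)) ∧
          ∀ t : unitInterval, (t : ℝ) < 1 → G ω t = ψ (γ ω (t / (1 - t)))) ∧
        (∀ F, BoundedContinuous F → AEMeasurable (fun ω => F (G ω)) P) ∧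
        (∀ (δ : ℕ → ℝ) (N k : ℕ → ℕ) (p : ∀ n, ZMod (N n) → ℤ × ℤ)
          (S : ℕ → Finset (ℤ × ℤ)), Approx Φ δ N k p S →
          (∀ n, ∀ A ⊆ edges (S n), ∃ η, IsInterface (p n) (k n) (δ n) A η) ∧
          ((∃ d : Fin 4, Staircase d δ N k p) → Converges q P G δ N k p S)) ∧
        ∃ Φ' : (ℝ × ℝ) ≃ₜ (ℝ × ℝ), dom Φ' = dom Φ ∧ Φ' (circ 0) = Φ (circ 0) ∧
          Φ' (circ Real.pi) = Φ (circ Real.pi) ∧
          ∀ δ : ℕ → ℝ, (∀ n, 0 < δ n) → Tendsto δ atTop (𝓝 0) →
            ∃ (N k : ℕ → ℕ) (p : ∀ n, ZMod (N n) → ℤ × ℤ) (S : ℕ → Finset (ℤ × ℤ)),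
              Approx Φ' δ N k p S ∧ Converges q P G δ N k p S

end Vale.Agent.P167.Final
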